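import Mathlib

/-!
P217, module M7: symmetric two-cocycles of degree d = r * p^v in characteristic p, given by the
coefficient c i of X^i Y^(d-i).
-/

namespace Vale.Agent.P217.Classify

variable (p : ℕ) [hp : Fact p.Prime] (k : Type*) [Field k] [CharP k p]

theorem cast_choose_split (v : ℕ) : ∀ {a b c e : ℕ}, b < p ^ v → e < p ^ v →
    ((p ^ v * a + b).choose (p ^ v * c + e) : k) = (a.choose c : k) * (b.choose e : k) := by
  induction v with
  | zero =>
    intro a b c e hb he
    obtain rfl : b = 0 := by simpa using hb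
    obtain rfl : e = 0 := by simpa using he
    simp
  | succ v ih =>
    intro a b c e hb he
    have hp0 : 0 < p := hp.out.pos
    have hstep : ∀ N M : ℕ, (N.choose M : k) =
        ((N % p).choose (M % p) : k) * ((N / p).choose (M / p) : k) := fun N M => by
      rw [← Nat.cast_mul]
      exact (CharP.natCast_eq_natCast k p).mpr Choose.choose_modEq_choose_mod_mul_choose_div_nat
    have h1 : ∀ x y : ℕ, (p ^ (v + 1) * x + y) % p = y % p := fun x y => by
      rw [pow_succ', mul_assoc, Nat.mul_add_mod]
    have h2 : ∀ x y : ℕ, (p ^ (v + 1) * x + y) / p = p ^ v * x + y / p := fun x y => by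
      rw [pow_succ', mul_assoc, Nat.mul_add_div hp0]
    have h3 : ∀ y : ℕ, y < p ^ (v + 1) → y / p < p ^ v := fun y hy =>
      Nat.div_lt_of_lt_mul (by rwa [pow_succ'] at hy)
    rw [hstep, h1, h1, h2, h2, ih (h3 b hb) (h3 e he), hstep b e]
    ring

theorem cast_choose_split_zero (v : ℕ) {a b c : ℕ} (hb : b < p ^ v) :
    ((p ^ v * a + b).choose (p ^ v * c) : k) = (a.choose c : k) := by
  have h := cast_choose_split p k v (a := a) (c := c) hb (show 0 < p ^ v from pow_pos hp.out.pos v)
  simpa using h

variable {p k}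
variable {c : ℕ → k} {v r : ℕ}

/-- Coefficients off the multiples of s = p^v vanish. -/
theorem eq_zero_of_not_dvd
    (hco : ∀ a m, 0 < a → a < m → m < p ^ v * r →
      (m.choose a : k) * c m = ((p ^ v * r - a).choose (m - a) : k) * c a)
    (hr : 2 ≤ r)
    {m : ℕ} (hm0 : 0 < m) (hm : m < p ^ v * r) (hdvd : ¬ p ^ v ∣ m) : c m = 0 := by
  set s := p ^ v with hs'
  have hspos : 0 < s := pow_pos hp.out.pos v
  have small : ∀ a, 0 < a → a < s → c a = 0 := by
    intro a ha has
    have h := hco a s ha has (by nlinarith)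
    have h1 : (s.choose a : k) = 0 := by
      have := cast_choose_split p k v (a := 1) (c := 0) hspos has
      rw [mul_one, add_zero, mul_zero, zero_add, Nat.choose_eq_zero_of_lt ha] at this
      simpa using this
    have h2 : ((s * r - a).choose (s - a) : k) = 1 := by
      have e : s * r - a = s * (r - 1) + (s - a) := by
        obtain ⟨r', rfl⟩ : ∃ r', r = r' + 1 := ⟨r - 1, by omega⟩
        simp only [add_tsub_cancel_right]
        rw [Nat.mul_succ]
        omega
      have := cast_choose_split p k v (a := r - 1) (c := 0) (b := s - a) (e := s - a)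
        (by omega) (by omega)
      rw [mul_zero, zero_add, ← e] at this
      simpa using this
    rw [h1, h2, zero_mul, one_mul] at h
    exact h.symm
  have hb : m % s ≠ 0 := fun h => hdvd (Nat.dvd_of_mod_eq_zero h)
  have hlt : m % s < s := Nat.mod_lt _ hspos
  have hle : m % s ≤ m := Nat.mod_le m s
  rcases hle.eq_or_lt with h | h
  · exact small m hm0 (h ▸ hlt)
  · have h' := hco (m % s) m (Nat.pos_of_ne_zero hb) h hm
    have h1 : (m.choose (m % s) : k) = 1 := by
      have := cast_choose_split p k v (a := m / s) (c := 0) hlt hlt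
      rw [mul_zero, zero_add, Nat.div_add_mod] at this
      simpa using this
    rw [h1, one_mul, small _ (Nat.pos_of_ne_zero hb) hlt, mul_zero] at h'
    exact h'

/-- A symmetric cocycle with vanishing coefficient at s = p^v is zero. -/
theorem eq_zero
    (hco : ∀ a m, 0 < a → a < m → m < p ^ v * r →
      (m.choose a : k) * c m = ((p ^ v * r - a).choose (m - a) : k) * c a)
    (hsymm : ∀ a, 0 < a → a < p ^ v * r → c (p ^ v * r - a) = c a)
    (hr : 2 ≤ r) (hgood : ∀ j, 0 < j → j < r → ¬ p ∣ j ∨ ¬ p ∣ r - j)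
    (hcs : c (p ^ v) = 0) {m : ℕ} (hm0 : 0 < m) (hm : m < p ^ v * r) : c m = 0 := by
  set s := p ^ v with hs'
  have hspos : 0 < s := pow_pos hp.out.pos v
  have mult : ∀ j, 0 < j → j < r → ¬ p ∣ j → c (s * j) = 0 := by
    intro j hj hjr hpj
    rcases (Nat.succ_le_of_lt hj).eq_or_lt with h | h
    · subst h; simpa using hcs
    · have h' := hco s (s * j) hspos (by nlinarith) (Nat.mul_lt_mul_of_pos_left hjr hspos)
      have h1 : ((s * j).choose s : k) = (j : k) := by
        have := cast_choose_split p k v (a := j) (c := 1) hspos hspos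
        simpa using this
      rw [h1, hcs, mul_zero] at h'
      exact (mul_eq_zero.mp h').resolve_left fun h0 => hpj ((CharP.cast_eq_zero_iff k p j).mp h0)
  by_cases hdvd : s ∣ m
  · obtain ⟨j, rfl⟩ := hdvd
    have hj : 0 < j := Nat.pos_of_mul_pos_left hm0
    have hjr : j < r := Nat.lt_of_mul_lt_mul_left hm
    rcases hgood j hj hjr with h | h
    · exact mult j hj hjr h
    · rw [← hsymm (s * j) hm0 hm, ← Nat.mul_sub]
      exact mult (r - j) (by omega) (by omega) h
  · exact eq_zero_of_not_dvd hco hr hm0 hm hdvd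

omit hp [CharP k p] in
theorem zmod_pow_char_pow [Fact p.Prime] (x : ZMod p) (v : ℕ) : x ^ p ^ v = x := by
  induction v with
  | zero => simp
  | succ v ih => rw [pow_succ, pow_mul, ih, ZMod.pow_card]

/-- For d = p^(v+1) the sum of the values c(1, i), i < p, is -c(p^v). -/
theorem sum_eq
    (hco : ∀ a m, 0 < a → a < m → m < p ^ v * p →
      (m.choose a : k) * c m = ((p ^ v * p - a).choose (m - a) : k) * c a)
    (hc0 : c 0 = 0) (hcd : c (p ^ v * p) = 0) :
    ∑ m ∈ Finset.range (p ^ v * p + 1),
      c m * ∑ i ∈ Finset.range p, (i : k) ^ (p ^ v * p - m) = - c (p ^ v) := by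
  have hspos : 0 < p ^ v := pow_pos hp.out.pos v
  have hp2 : 2 ≤ p := hp.out.two_le
  have hpow : ∀ (i e : ℕ), (i : k) ^ (p ^ v * e) = (i : k) ^ e := fun i e => by
    rw [pow_mul, ← map_natCast (ZMod.castHom (dvd_refl p) k), ← map_pow, zmod_pow_char_pow]
  have hsum : ∀ e, e < p - 1 → ∑ i ∈ Finset.range p, (i : k) ^ e = 0 := fun e he => by
    have h := congrArg (ZMod.castHom (dvd_refl p) k)
      (FiniteField.sum_pow_lt_card_sub_one (ZMod p) e (by rwa [ZMod.card]))
    rw [map_sum, map_zero] at h
    refine Eq.trans ?_ h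
    refine Finset.sum_bij' (fun i _ => (i : ZMod p)) (fun x _ => x.val) (by simp)
      (fun x _ => Finset.mem_range.mpr (ZMod.val_lt x))
      (fun i hi => ZMod.val_cast_of_lt (Finset.mem_range.mp hi)) (by simp) (by simp)
  have htop : ∑ i ∈ Finset.range p, (i : k) ^ (p - 1) = -1 := by
    have : ∀ i ∈ Finset.range p, (i : k) ^ (p - 1) = if i = 0 then 0 else 1 := fun i hi => by
      split_ifs with h
      · simp [h, zero_pow (show p - 1 ≠ 0 by omega)]
      · have hne : (i : ZMod p) ≠ 0 := by
          rw [Ne, ZMod.natCast_eq_zero_iff]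
          exact fun hd => absurd (Nat.le_of_dvd (Nat.pos_of_ne_zero h) hd)
            (not_le.mpr (Finset.mem_range.mp hi))
        simpa using congrArg (ZMod.castHom (dvd_refl p) k) (ZMod.pow_card_sub_one_eq_one hne)
    obtain ⟨p', hp'⟩ : ∃ p', p = p' + 1 := ⟨p - 1, by omega⟩
    rw [Finset.sum_congr rfl this]
    rw [hp', Finset.sum_range_succ']
    simp only [Nat.succ_ne_zero, if_false, if_pos, add_zero, Finset.sum_const, Finset.card_range,
      nsmul_eq_mul, mul_one]
    have h0 : (p : k) = 0 := CharP.cast_eq_zero k p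
    rw [hp', Nat.cast_add, Nat.cast_one] at h0
    linear_combination h0
  rw [Finset.sum_eq_single (p ^ v)]
  · have e : p ^ v * p - p ^ v = p ^ v * (p - 1) := by rw [Nat.mul_sub, mul_one]
    simp_rw [e, hpow, htop]
    ring
  · intro m hm hne
    have hmd : m ≤ p ^ v * p := Nat.lt_succ_iff.mp (Finset.mem_range.mp hm)
    rcases Nat.eq_zero_or_pos m with h | h
    · simp [h, hc0]
    rcases hmd.eq_or_lt with h' | h'
    · simp [h', hcd]
    by_cases hdvd : p ^ v ∣ m
    · obtain ⟨j, rfl⟩ := hdvd
      have hj : 0 < j := Nat.pos_of_mul_pos_left h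
      have hj1 : j ≠ 1 := fun hj1 => hne (by simp [hj1])
      have hjp : j < p := Nat.lt_of_mul_lt_mul_left h'
      simp_rw [← Nat.mul_sub, hpow, hsum (p - j) (by omega), mul_zero]
    · rw [eq_zero_of_not_dvd hco hp2 h h' hdvd, zero_mul]
  · intro h
    exact absurd (Finset.mem_range.mpr (by nlinarith)) h

end Vale.Agent.P217.Classify
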