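import Vale.Agent.P217.Classify.Low
import Vale.Agent.P217.Classify.Cocycle

/-!
P217, module M7: the defect of a series as a homomorphism of laws, in its lowest degree.
-/

namespace Vale.Agent.P217.Classify

noncomputable section

open MvPowerSeries Finsupp
open Vale.Agent.P217.Rigid (Agree agree_iff coeff_subst_sub)

variable {σ : Type*} {k : Type*} [Field k] {G H : FormalGroup k} {θ : PowerSeries k}

/-- θ(G(X, Y)) - H(θ X, θ Y). -/
def defect (G H : FormalGroup k) (θ : PowerSeries k) : MvPowerSeries (Fin 2) k :=
  PowerSeries.subst (G : MvPowerSeries (Fin 2) k) θ -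
    (H : MvPowerSeries (Fin 2) k).subst
      ![PowerSeries.subst (X (0 : Fin 2) : MvPowerSeries (Fin 2) k) θ,
        PowerSeries.subst (X (1 : Fin 2) : MvPowerSeries (Fin 2) k) θ]

theorem isHom_of_defect (h0 : PowerSeries.constantCoeff θ = 0) (h : defect G H θ = 0) :
    IsHom G H θ := ⟨h0, sub_eq_zero.mp h⟩

theorem constantCoeff_point (h0 : PowerSeries.constantCoeff θ = 0) {f : MvPowerSeries σ k}
    (hf : constantCoeff f = 0) : constantCoeff (PowerSeries.subst f θ) = 0 :=
  PowerSeries.constantCoeff_subst_eq_zero hf θ h0

theorem subst_defect (h0 : PowerSeries.constantCoeff θ = 0) {f g : MvPowerSeries σ k}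
    (hf : constantCoeff f = 0) (hg : constantCoeff g = 0) :
    subst ![f, g] (defect G H θ) =
      PowerSeries.subst ((G : MvPowerSeries (Fin 2) k).subst ![f, g]) θ -
        (H : MvPowerSeries (Fin 2) k).subst ![PowerSeries.subst f θ, PowerSeries.subst g θ] := by
  have hfg := hasSubst_pair hf hg
  have hG : PowerSeries.HasSubst (G : MvPowerSeries (Fin 2) k) :=
    PowerSeries.HasSubst.of_constantCoeff_zero G.zero_constantCoeff
  have hX : ∀ i : Fin 2, constantCoeff
      (PowerSeries.subst (X i : MvPowerSeries (Fin 2) k) θ) = 0 := fun i =>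
    constantCoeff_point h0 (constantCoeff_X i)
  rw [defect, subst_sub hfg, PowerSeries.subst, subst_comp_subst_apply hG.const hfg,
    subst_comp_subst_apply (hasSubst_pair (hX 0) (hX 1)) hfg]
  congr 2
  funext i
  fin_cases i
  · simp [PowerSeries.subst_def,
      subst_comp_subst_apply (PowerSeries.HasSubst.X (0 : Fin 2)).const hfg, subst_X hfg]
  · simp [PowerSeries.subst_def,
      subst_comp_subst_apply (PowerSeries.HasSubst.X (1 : Fin 2)).const hfg, subst_X hfg]

/-- Substituting two variables into a series in two variables. -/
theorem coeff_subst_vars (F : MvPowerSeries (Fin 2) k) {i j : σ} (hij : i ≠ j) (a b : ℕ) :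
    coeff (single i a + single j b) (subst ![X i, X j] F) = coeff (m2 a b) F := by
  classical
  rw [coeff_subst (hasSubst_pair (constantCoeff_X i) (constantCoeff_X j)),
    finsum_eq_single _ (m2 a b)]
  · simp [Finsupp.prod_fintype, m2_zero, m2_one, X_pow_mul_X_pow]
  · intro f hf
    simp only [Finsupp.prod_fintype, pow_zero, implies_true, Fin.prod_univ_two,
      Matrix.cons_val_zero, Matrix.cons_val_one, X_pow_mul_X_pow, coeff_monomial, smul_eq_mul]
    rw [if_neg, mul_zero]
    intro h
    apply hf
    have h0 := DFunLike.congr_fun h i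
    have h1 := DFunLike.congr_fun h j
    simp [hij, hij.symm] at h0 h1
    rw [eq_m2 f, h0, h1]

theorem defect_axis (h0 : PowerSeries.constantCoeff θ = 0) (a : ℕ) :
    coeff (m2 a 0) (defect G H θ) = 0 ∧ coeff (m2 0 a) (defect G H θ) = 0 := by
  classical
  have hz : ∀ i : Fin 2, PowerSeries.HasSubst (PowerSeries.subst (X i : MvPowerSeries (Fin 2) k) θ) :=
    fun i => PowerSeries.HasSubst.of_constantCoeff_zero (constantCoeff_point h0 (constantCoeff_X i))
  have hzero : PowerSeries.subst (0 : MvPowerSeries (Fin 2) k) θ = 0 :=
    PowerSeries.subst_zero_of_constantCoeff_zero h0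
  have key : ∀ f : Fin 2 → MvPowerSeries (Fin 2) k, subst f (defect G H θ) = 0 → HasSubst f →
      ∀ n : Fin 2 →₀ ℕ, (∀ e, e ≠ n → coeff n (e.prod fun i m => f i ^ m) = 0) →
      coeff n (n.prod fun i m => f i ^ m) = 1 → coeff n (defect G H θ) = 0 := by
    intro f hf hs n hne h1
    have h := congrArg (coeff n) hf
    rw [coeff_subst hs, finsum_eq_single _ n (fun e he => by rw [hne e he, smul_zero]), h1,
      smul_eq_mul, mul_one, map_zero] at h
    exact h
  constructor
  · refine key ![X 0, 0] ?_ (hasSubst_pair (constantCoeff_X _) (map_zero _)) _ ?_ ?_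
    · rw [subst_defect h0 (constantCoeff_X _) (map_zero _),
        G.add_zero (PowerSeries.HasSubst.X 0), hzero, H.add_zero (hz 0), sub_self]
    · intro e he
      simp only [Finsupp.prod_fintype, pow_zero, implies_true, Fin.prod_univ_two,
        Matrix.cons_val_zero, Matrix.cons_val_one]
      rcases Nat.eq_zero_or_pos (e 1) with h | h
      · rw [h, pow_zero, mul_one, coeff_X_pow, if_neg]
        intro h'
        apply he
        rw [eq_m2 e, h]
        have h'' := DFunLike.congr_fun h' 0
        simp [m2] at h''
        rw [h'']
      · simp [zero_pow (by omega : e 1 ≠ 0)]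
    · simp [Finsupp.prod_fintype, coeff_X_pow, m2]
  · refine key ![0, X 1] ?_ (hasSubst_pair (map_zero _) (constantCoeff_X _)) _ ?_ ?_
    · rw [subst_defect h0 (map_zero _) (constantCoeff_X _),
        G.zero_add (PowerSeries.HasSubst.X 1), hzero, H.zero_add (hz 1), sub_self]
    · intro e he
      simp only [Finsupp.prod_fintype, pow_zero, implies_true, Fin.prod_univ_two,
        Matrix.cons_val_zero, Matrix.cons_val_one]
      rcases Nat.eq_zero_or_pos (e 0) with h | h
      · rw [h, pow_zero, one_mul, coeff_X_pow, if_neg]
        intro h'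
        apply he
        rw [eq_m2 e, h]
        have h'' := DFunLike.congr_fun h' 1
        simp [m2] at h''
        rw [h'']
      · simp [zero_pow (by omega : e 0 ≠ 0)]
    · simp [Finsupp.prod_fintype, coeff_X_pow, m2]

theorem defect_symm [G.IsComm] [H.IsComm] (h0 : PowerSeries.constantCoeff θ = 0) (a b : ℕ) :
    coeff (m2 a b) (defect G H θ) = coeff (m2 b a) (defect G H θ) := by
  have hz : ∀ i : Fin 2, PowerSeries.HasSubst (PowerSeries.subst (X i : MvPowerSeries (Fin 2) k) θ) :=
    fun i => PowerSeries.HasSubst.of_constantCoeff_zero (constantCoeff_point h0 (constantCoeff_X i))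
  have e : subst ![X 1, X 0] (defect G H θ) = defect G H θ := by
    rw [subst_defect h0 (constantCoeff_X _) (constantCoeff_X _), H.comm' (hz 1) (hz 0),
      G.comm' (PowerSeries.HasSubst.X 1) (PowerSeries.HasSubst.X 0)]
    have : (![X 0, X 1] : Fin 2 → MvPowerSeries (Fin 2) k) = X := by
      funext i; fin_cases i <;> rfl
    rw [this, subst_self, id_eq]
    rfl
  have h := coeff_subst_vars (defect G H θ) (show (1 : Fin 2) ≠ 0 by decide) a b
  rw [e, add_comm] at h
  exact h.symm

theorem agree_subst_law (G : FormalGroup k) (i j : Fin 3) :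
    Agree 2 ((G : MvPowerSeries (Fin 2) k).subst ![(X i : MvPowerSeries (Fin 3) k), X j])
      (X i + X j) := by
  intro e he
  have hs := hasSubst_pair (f := (X i : MvPowerSeries (Fin 3) k)) (g := X j) (constantCoeff_X i)
    (constantCoeff_X j)
  have h := coeff_subst_eq_zero_of_lt (F := (G : MvPowerSeries (Fin 2) k) - (X 0 + X 1))
    (a := ![X i, X j]) (fun l => by fin_cases l <;> simp) (d := 2)
    (fun f hf => by rw [map_sub, agree_law G f hf, sub_self]) (e := e) he
  rw [subst_sub hs, subst_add hs, subst_X hs, subst_X hs, map_sub, sub_eq_zero] at h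
  simpa using h

/-- The cocycle identity in the lowest degree. -/
theorem defect_cocycle (h0 : PowerSeries.constantCoeff θ = 0) {d : ℕ}
    (hD : ∀ e, degree e < d → coeff e (defect G H θ) = 0) {a b c : ℕ} (ha : 0 < a)
    (hc : 0 < c) (habc : a + b + c = d) :
    ((a + b).choose a : k) * coeff (m2 (a + b) c) (defect G H θ) =
      ((b + c).choose b : k) * coeff (m2 a (b + c)) (defect G H θ) := by
  classical
  set e : Fin 3 →₀ ℕ := single 0 a + single 1 b + single 2 c with he
  have e0 : e 0 = a := by simp [he]
  have e1 : e 1 = b := by simp [he]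
  have e2 : e 2 = c := by simp [he]
  have hdeg : degree e = d := by simp [he, habc]
  set D := defect G H θ with hDdef
  set U := (G : MvPowerSeries (Fin 2) k).subst ![(X 0 : MvPowerSeries (Fin 3) k), X 1] with hUdef
  set V := (G : MvPowerSeries (Fin 2) k).subst ![(X 1 : MvPowerSeries (Fin 3) k), X 2] with hVdef
  have hU : constantCoeff U = 0 := constantCoeff_subst_pair G (constantCoeff_X _) (constantCoeff_X _)
  have hV : constantCoeff V = 0 := constantCoeff_subst_pair G (constantCoeff_X _) (constantCoeff_X _)
  let T : Fin 3 → MvPowerSeries (Fin 3) k := fun i => PowerSeries.subst (X i) θ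
  have hT : ∀ i, constantCoeff (T i) = 0 := fun i => constantCoeff_point h0 (constantCoeff_X i)
  have eL : coeff e (PowerSeries.subst ((G : MvPowerSeries (Fin 2) k).subst ![U, X 2]) θ) =
      coeff e ((H : MvPowerSeries (Fin 2) k).subst
        ![(H : MvPowerSeries (Fin 2) k).subst ![T 0, T 1], T 2]) +
      coeff e (subst ![U, X 2] D) := by
    have h := congrArg (coeff e) (subst_defect (G := G) (H := H) h0 hU (constantCoeff_X (2 : Fin 3)))
    rw [map_sub, ← hDdef] at h
    have hsub := coeff_subst_sub (H : MvPowerSeries (Fin 2) k) 0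
      ![PowerSeries.subst U θ, T 2] ![(H : MvPowerSeries (Fin 2) k).subst ![T 0, T 1], T 2]
      (fun i => by fin_cases i <;> simp [hT, constantCoeff_point h0 hU])
      (constantCoeff_subst_pair H (hT 0) (hT 1)) (fun i hi => by fin_cases i <;> simp_all)
      (n := d) (fun f hf => by
        have h' := congrArg (coeff f) (subst_defect (G := G) (H := H) h0
          (constantCoeff_X (0 : Fin 3)) (constantCoeff_X (1 : Fin 3)))
        rw [map_sub, coeff_subst_eq_zero_of_lt (fun i => by fin_cases i <;> simp) hD hf] at h'
        exact sub_eq_zero.mp h'.symm) (d := e) hdeg.le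
    have hzero : coeff e (subst ![(X 0 : MvPowerSeries (Fin 3) k), X 1] D) = 0 := by
      rw [coeff_subst (hasSubst_pair (constantCoeff_X _) (constantCoeff_X _))]
      refine finsum_eq_zero_of_forall_eq_zero fun f => ?_
      simp only [Finsupp.prod_fintype, pow_zero, implies_true, Fin.prod_univ_two,
        Matrix.cons_val_zero, Matrix.cons_val_one, X_pow_mul_X_pow, coeff_monomial, smul_eq_mul]
      rw [if_neg, mul_zero]
      intro h'
      have := DFunLike.congr_fun h' 2
      rw [e2] at this
      simp at this
      omega
    rw [hDdef, subst_defect h0 (constantCoeff_X _) (constantCoeff_X _), map_sub] at hzero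
    simp only [Matrix.cons_val_zero, H.lin_coeff_X, one_mul] at hsub
    linear_combination -h + hsub + hzero
  have eR : coeff e (PowerSeries.subst ((G : MvPowerSeries (Fin 2) k).subst ![X 0, V]) θ) =
      coeff e ((H : MvPowerSeries (Fin 2) k).subst
        ![T 0, (H : MvPowerSeries (Fin 2) k).subst ![T 1, T 2]]) +
      coeff e (subst ![X 0, V] D) := by
    have h := congrArg (coeff e) (subst_defect (G := G) (H := H) h0 (constantCoeff_X (0 : Fin 3)) hV)
    rw [map_sub, ← hDdef] at h
    have hsub := coeff_subst_sub (H : MvPowerSeries (Fin 2) k) 1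
      ![T 0, PowerSeries.subst V θ] ![T 0, (H : MvPowerSeries (Fin 2) k).subst ![T 1, T 2]]
      (fun i => by fin_cases i <;> simp [hT, constantCoeff_point h0 hV])
      (constantCoeff_subst_pair H (hT 1) (hT 2)) (fun i hi => by fin_cases i <;> simp_all)
      (n := d) (fun f hf => by
        have h' := congrArg (coeff f) (subst_defect (G := G) (H := H) h0
          (constantCoeff_X (1 : Fin 3)) (constantCoeff_X (2 : Fin 3)))
        rw [map_sub, coeff_subst_eq_zero_of_lt (fun i => by fin_cases i <;> simp) hD hf] at h'
        exact sub_eq_zero.mp h'.symm) (d := e) hdeg.le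
    have hzero : coeff e (subst ![(X 1 : MvPowerSeries (Fin 3) k), X 2] D) = 0 := by
      rw [coeff_subst (hasSubst_pair (constantCoeff_X _) (constantCoeff_X _))]
      refine finsum_eq_zero_of_forall_eq_zero fun f => ?_
      simp only [Finsupp.prod_fintype, pow_zero, implies_true, Fin.prod_univ_two,
        Matrix.cons_val_zero, Matrix.cons_val_one, X_pow_mul_X_pow, coeff_monomial, smul_eq_mul]
      rw [if_neg, mul_zero]
      intro h'
      have := DFunLike.congr_fun h' 0
      rw [e0] at this
      simp at this
      omega
    rw [hDdef, subst_defect h0 (constantCoeff_X _) (constantCoeff_X _), map_sub] at hzero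
    simp only [Matrix.cons_val_one, Matrix.cons_val_zero, H.lin_coeff_Y, one_mul] at hsub
    linear_combination -h + hsub + hzero
  have hL : coeff e (subst ![U, X 2] D) = ((a + b).choose a : k) * coeff (m2 (a + b) c) D := by
    rw [coeff_subst_low (b := ![(X 0 + X 1 : MvPowerSeries (Fin 3) k), X 2]) (fun i => by
        fin_cases i
        · exact low_one hU (by simp) (agree_subst_law G 0 1)
        · exact low_one (constantCoeff_X _) (constantCoeff_X _) fun _ _ => rfl)
      (fun i => by fin_cases i <;> simp [hU]) (fun i => by fin_cases i <;> simp) hD hdeg.le,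
      coeff_subst (hasSubst_pair (by simp) (constantCoeff_X _)), finsum_eq_single _ (m2 (a + b) c)]
    · simp [Finsupp.prod_fintype, m2_zero, m2_one, coeff_lin_pow, e0, e1, e2, mul_comm]
    · intro f hf
      simp only [Finsupp.prod_fintype, pow_zero, implies_true, Fin.prod_univ_two,
        Matrix.cons_val_zero, Matrix.cons_val_one, smul_eq_mul]
      rw [coeff_lin_pow (by decide) (by decide) (by decide), if_neg, mul_zero]
      rw [e0, e1, e2]
      rintro ⟨h1, h2⟩
      exact hf (by rw [eq_m2 f, h1, h2])
  have hR : coeff e (subst ![X 0, V] D) = ((b + c).choose b : k) * coeff (m2 a (b + c)) D := by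
    rw [coeff_subst_low (b := ![X 0, (X 1 + X 2 : MvPowerSeries (Fin 3) k)]) (fun i => by
        fin_cases i
        · exact low_one (constantCoeff_X _) (constantCoeff_X _) fun _ _ => rfl
        · exact low_one hV (by simp) (agree_subst_law G 1 2))
      (fun i => by fin_cases i <;> simp [hV]) (fun i => by fin_cases i <;> simp) hD hdeg.le,
      coeff_subst (hasSubst_pair (constantCoeff_X _) (by simp)), finsum_eq_single _ (m2 a (b + c))]
    · simp only [Finsupp.prod_fintype, pow_zero, implies_true, Fin.prod_univ_two,
        Matrix.cons_val_zero, Matrix.cons_val_one, smul_eq_mul, m2_zero, m2_one]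
      rw [mul_comm (X 0 ^ a), coeff_lin_pow (by decide) (by decide) (by decide), if_pos]
      · rw [e1, mul_comm]
      · rw [e0, e1, e2]
        exact ⟨rfl, rfl⟩
    · intro f hf
      simp only [Finsupp.prod_fintype, pow_zero, implies_true, Fin.prod_univ_two,
        Matrix.cons_val_zero, Matrix.cons_val_one, smul_eq_mul]
      rw [mul_comm (X 0 ^ f 0), coeff_lin_pow (by decide) (by decide) (by decide), if_neg, mul_zero]
      rw [e0, e1, e2]
      rintro ⟨h1, h2⟩
      exact hf (by rw [eq_m2 f, h1, h2])
  have hassoc : (G : MvPowerSeries (Fin 2) k).subst ![U, X 2] =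
      (G : MvPowerSeries (Fin 2) k).subst ![X 0, V] := G.assoc
  have hassoc' : (H : MvPowerSeries (Fin 2) k).subst
        ![(H : MvPowerSeries (Fin 2) k).subst ![T 0, T 1], T 2] =
      (H : MvPowerSeries (Fin 2) k).subst
        ![T 0, (H : MvPowerSeries (Fin 2) k).subst ![T 1, T 2]] :=
    H.assoc' (PowerSeries.HasSubst.of_constantCoeff_zero (hT 0))
      (PowerSeries.HasSubst.of_constantCoeff_zero (hT 1))
      (PowerSeries.HasSubst.of_constantCoeff_zero (hT 2))
  rw [hassoc, eR, hassoc', hR, hL] at eL
  exact (add_left_cancel eL).symm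

/-- The coefficient of X^i Y^(d-i) of the defect. -/
def coc (G H : FormalGroup k) (θ : PowerSeries k) (d i : ℕ) : k :=
  coeff (m2 i (d - i)) (defect G H θ)

theorem coc_cocycle (h0 : PowerSeries.constantCoeff θ = 0) {d : ℕ}
    (hD : ∀ e, degree e < d → coeff e (defect G H θ) = 0) {a m : ℕ} (ha : 0 < a) (ham : a < m)
    (hmd : m < d) :
    (m.choose a : k) * coc G H θ d m = ((d - a).choose (m - a) : k) * coc G H θ d a := by
  have h := defect_cocycle h0 hD (a := a) (b := m - a) (c := d - m) ha (by omega) (by omega)
  rw [show a + (m - a) = m by omega, show m - a + (d - m) = d - a by omega] at h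
  exact h

theorem coc_symm [G.IsComm] [H.IsComm] (h0 : PowerSeries.constantCoeff θ = 0) {d a : ℕ}
    (had : a ≤ d) : coc G H θ d (d - a) = coc G H θ d a := by
  rw [coc, coc, show d - (d - a) = a by omega, defect_symm h0]

/-- θ([m]_G) and [m]_H θ differ in degree d by the sum of the values of the defect. -/
theorem coeff_subst_mulSeries_sub (h0 : PowerSeries.constantCoeff θ = 0) {d : ℕ}
    (hD : ∀ e, degree e < d → coeff e (defect G H θ) = 0) :
    ∀ (m : ℕ) (e : Unit →₀ ℕ), degree e ≤ d →
      coeff e (PowerSeries.subst (mulSeries G m : MvPowerSeries Unit k) θ) -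
        coeff e (PowerSeries.subst (θ : MvPowerSeries Unit k) (mulSeries H m)) =
      if degree e = d then ∑ l ∈ Finset.range m, ∑ i ∈ Finset.range (d + 1),
        coc G H θ d i * (l : k) ^ (d - i) else 0 := by
  classical
  intro m
  induction m with
  | zero =>
    intro e he
    have hθ : PowerSeries.HasSubst θ := PowerSeries.HasSubst.of_constantCoeff_zero' h0
    have h2 : PowerSeries.subst (θ : MvPowerSeries Unit k) (0 : PowerSeries k) = 0 := by
      rw [← PowerSeries.coe_substAlgHom hθ, map_zero]
    have h1 : PowerSeries.subst (0 : MvPowerSeries Unit k) θ = 0 :=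
      PowerSeries.subst_zero_of_constantCoeff_zero h0
    simp [mulSeries, h1, h2]
  | succ m ih =>
    intro e he
    set M : MvPowerSeries Unit k := mulSeries G m with hM
    set B : MvPowerSeries Unit k := PowerSeries.subst (θ : MvPowerSeries Unit k) (mulSeries H m)
      with hB
    have hM0 : constantCoeff M = 0 := constantCoeff_mulSeries G m
    have hX0 : constantCoeff (X () : MvPowerSeries Unit k) = 0 := constantCoeff_X _
    have hB0 : constantCoeff B = 0 := PowerSeries.constantCoeff_subst_eq_zero
      (show constantCoeff (θ : MvPowerSeries Unit k) = 0 from h0) _ (constantCoeff_mulSeries H m)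
    have hθX : PowerSeries.subst (X () : MvPowerSeries Unit k) θ = (θ : MvPowerSeries Unit k) :=
      PowerSeries.X_subst θ
    have hG1 : (mulSeries G (m + 1) : MvPowerSeries Unit k) =
        (G : MvPowerSeries (Fin 2) k).subst ![X (), M] := rfl
    rw [hG1, subst_mulSeries_succ H m (f := (θ : MvPowerSeries Unit k)) h0, ← hB]
    have h := congrArg (coeff e) (subst_defect (G := G) (H := H) h0 hX0 hM0)
    rw [map_sub, hθX] at h
    have hsub := coeff_subst_sub (H : MvPowerSeries (Fin 2) k) 1
      ![(θ : MvPowerSeries Unit k), PowerSeries.subst M θ] ![(θ : MvPowerSeries Unit k), B]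
      (fun i => by
        fin_cases i
        · exact h0
        · exact constantCoeff_point h0 hM0)
      hB0 (fun i hi => by fin_cases i <;> simp_all) (n := d)
      (fun f hf => by
        have h' := ih f hf.le
        rw [if_neg hf.ne, sub_eq_zero] at h'
        exact h') (d := e) he
    simp only [Matrix.cons_val_one, Matrix.cons_val_zero, H.lin_coeff_Y, one_mul, ih e he] at hsub
    have hval : coeff e (subst ![X (), M] (defect G H θ)) = if degree e = d then
        ∑ i ∈ Finset.range (d + 1), coc G H θ d i * (m : k) ^ (d - i) else 0 := by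
      split_ifs with hed
      · rw [coeff_subst_low (b := ![X (), C (m : k) * X ()]) (fun i => by
            fin_cases i
            · exact low_one hX0 hX0 fun _ _ => rfl
            · exact low_one hM0 (by simp) (agree_mulSeries G m))
          (fun i => by fin_cases i <;> simp [hM0]) (fun i => by fin_cases i <;> simp) hD hed.le,
          coeff_subst (hasSubst_pair hX0 (by simp))]
        have hterm : ∀ f : Fin 2 →₀ ℕ, coeff e (f.prod fun i n =>
            (![X (), C (m : k) * X ()] : Fin 2 → MvPowerSeries Unit k) i ^ n) =
            if f 0 + f 1 = d then (m : k) ^ f 1 else 0 := by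
          intro f
          have hee : e = single () d := by
            ext
            rw [← hed, degree_eq_sum]
            simp
          simp only [Finsupp.prod_fintype, pow_zero, implies_true, Fin.prod_univ_two,
            Matrix.cons_val_zero, Matrix.cons_val_one, mul_pow, ← map_pow, mul_left_comm (X () ^ f 0),
            ← pow_add, coeff_C_mul, coeff_X_pow, hee]
          rcases eq_or_ne (f 0 + f 1) d with h' | h'
          · simp [h']
          · rw [if_neg, mul_zero, if_neg h']
            intro h''
            have := DFunLike.congr_fun h'' ()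
            simp at this
            exact h' this.symm
        rw [finsum_eq_sum_of_support_subset _ (s := (Finset.range (d + 1)).image
          fun i => m2 i (d - i)), Finset.sum_image]
        · refine Finset.sum_congr rfl fun i hi => ?_
          have := Finset.mem_range.mp hi
          rw [hterm, m2_zero, m2_one, if_pos (by omega), smul_eq_mul]
          rfl
        · intro i _ j _ hij
          simpa [m2_zero] using DFunLike.congr_fun hij 0
        · intro f hf
          simp only [Function.mem_support, hterm] at hf
          have hd' : f 0 + f 1 = d := by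
            by_contra h'
            simp [h'] at hf
          simp only [Finset.coe_image, Set.mem_image, Finset.mem_coe, Finset.mem_range]
          exact ⟨f 0, by omega, by rw [show d - f 0 = f 1 by omega]; exact (eq_m2 f).symm⟩
      · exact coeff_subst_eq_zero_of_lt (fun i => by fin_cases i <;> simp [hM0]) hD
          (lt_of_le_of_ne he hed)
    rw [hval] at h
    split_ifs with hed
    · rw [if_pos hed] at h hsub
      rw [Finset.sum_range_succ]
      linear_combination -h + hsub
    · rw [if_neg hed] at h hsub
      linear_combination -h + hsub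

end

end Vale.Agent.P217.Classify
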