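import Vale.Agent.P217.Series
import Vale.Agent.P217.Rigid.Formal

/-!
P217, module M7: lowest degree parts of substitutions.
-/

namespace Vale.Agent.P217.Classify

noncomputable section

open MvPowerSeries Finsupp
open Vale.Agent.P217.Rigid (Agree agree_iff coeff_subst_sub)

variable {σ τ : Type*} {k : Type*} [Field k]

/-- Two series without coefficients below degree n and with equal parts of degree n. -/
def Low (n : ℕ) (f g : MvPowerSeries σ k) : Prop :=
  (n : ℕ∞) ≤ f.order ∧ (n : ℕ∞) ≤ g.order ∧ Agree (n + 1) f g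

theorem low_zero (f : MvPowerSeries σ k) (g : MvPowerSeries σ k)
    (h : constantCoeff f = constantCoeff g) : Low 0 f g := by
  refine ⟨by simp, by simp, fun d hd => ?_⟩
  obtain rfl : d = 0 := (degree_eq_zero_iff d).mp (by omega)
  simpa using h

theorem Low.mul {m n : ℕ} {f g f' g' : MvPowerSeries σ k} (h : Low m f g) (h' : Low n f' g') :
    Low (m + n) (f * f') (g * g') := by
  refine ⟨?_, ?_, (agree_iff _ _ _).mpr ?_⟩
  · push_cast
    exact (add_le_add h.1 h'.1).trans le_order_mul
  · push_cast
    exact (add_le_add h.2.1 h'.2.1).trans le_order_mul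
  · have e : f * f' - g * g' = (f - g) * f' + g * (f' - g') := by ring
    rw [e]
    refine le_trans ?_ min_order_le_add
    refine le_min ?_ ?_
    · refine le_trans ?_ le_order_mul
      refine le_trans ?_ (add_le_add ((agree_iff _ _ _).mp h.2.2) h'.1)
      exact_mod_cast (by omega : m + n + 1 ≤ m + 1 + n)
    · refine le_trans ?_ le_order_mul
      refine le_trans ?_ (add_le_add h.2.1 ((agree_iff _ _ _).mp h'.2.2))
      exact_mod_cast (by omega : m + n + 1 ≤ m + (n + 1))

theorem Low.pow {m : ℕ} {f g : MvPowerSeries σ k} (h : Low m f g) :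
    ∀ i : ℕ, Low (i * m) (f ^ i) (g ^ i)
  | 0 => by simpa using low_zero (1 : MvPowerSeries σ k) 1 rfl
  | i + 1 => by
    rw [pow_succ, pow_succ, Nat.add_mul, one_mul]
    exact (Low.pow h i).mul h

theorem low_one {f g : MvPowerSeries σ k} (hf : constantCoeff f = 0)
    (hg : constantCoeff g = 0) (h : Agree 2 f g) : Low 1 f g :=
  ⟨by simpa using one_le_order_iff_constCoeff_eq_zero.mpr hf,
    by simpa using one_le_order_iff_constCoeff_eq_zero.mpr hg, h⟩

theorem low_prod [Fintype τ] {f g : τ → MvPowerSeries σ k}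
    (h : ∀ i, Low 1 (f i) (g i)) (a : τ →₀ ℕ) :
    Low (degree a) (a.prod fun i n => f i ^ n) (a.prod fun i n => g i ^ n) := by
  classical
  rw [degree_eq_sum, Finsupp.prod_fintype _ _ (fun i => pow_zero _),
    Finsupp.prod_fintype _ _ (fun i => pow_zero _)]
  induction (Finset.univ : Finset τ) using Finset.induction_on with
  | empty => simpa using low_zero (1 : MvPowerSeries σ k) 1 rfl
  | @insert i T hi ih =>
    rw [Finset.sum_insert hi, Finset.prod_insert hi, Finset.prod_insert hi]
    simpa using ((h i).pow (a i)).mul ih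

/-- A substitution into a series of order at least d only sees linear parts up to degree d. -/
theorem coeff_subst_low [Fintype τ] {F : MvPowerSeries τ k} {a b : τ → MvPowerSeries σ k}
    (h : ∀ i, Low 1 (a i) (b i)) (ha : ∀ i, constantCoeff (a i) = 0)
    (hb : ∀ i, constantCoeff (b i) = 0) {d : ℕ} (hF : ∀ e, degree e < d → coeff e F = 0)
    {e : σ →₀ ℕ} (he : degree e ≤ d) : coeff e (subst a F) = coeff e (subst b F) := by
  rw [coeff_subst (hasSubst_of_constantCoeff_zero ha),
    coeff_subst (hasSubst_of_constantCoeff_zero hb)]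
  refine finsum_congr fun f => ?_
  by_cases hf : degree f < d
  · simp [hF f hf]
  · rw [(low_prod h f).2.2 e (by omega)]

theorem coeff_subst_eq_zero_of_lt [Fintype τ] {F : MvPowerSeries τ k}
    {a : τ → MvPowerSeries σ k} (ha : ∀ i, constantCoeff (a i) = 0) {d : ℕ}
    (hF : ∀ e, degree e < d → coeff e F = 0) {e : σ →₀ ℕ} (he : degree e < d) :
    coeff e (subst a F) = 0 := by
  rw [coeff_subst (hasSubst_of_constantCoeff_zero ha)]
  refine finsum_eq_zero_of_forall_eq_zero fun f => ?_
  by_cases hf : degree f < d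
  · simp [hF f hf]
  · have := (low_prod (fun i => low_one (ha i) (ha i) fun _ _ => rfl) f).1
    rw [coeff_of_lt_order (lt_of_lt_of_le (by exact_mod_cast (by omega : degree e < degree f)) this),
      smul_zero]

/-- Changing the coefficient of degree d of a one variable series. -/
theorem coeff_subst_top {θ θ' : PowerSeries k} {a : MvPowerSeries σ k}
    (ha : constantCoeff a = 0) {d : ℕ}
    (h : ∀ i < d, PowerSeries.coeff i θ = PowerSeries.coeff i θ') {e : σ →₀ ℕ}
    (he : degree e ≤ d) :
    coeff e (PowerSeries.subst a θ) - coeff e (PowerSeries.subst a θ') =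
      (PowerSeries.coeff d θ - PowerSeries.coeff d θ') * coeff e (a ^ d) := by
  have hs : PowerSeries.HasSubst a := PowerSeries.HasSubst.of_constantCoeff_zero ha
  rw [PowerSeries.coeff_subst hs, PowerSeries.coeff_subst hs, ← finsum_sub_distrib
    (PowerSeries.coeff_subst_finite hs θ e) (PowerSeries.coeff_subst_finite hs θ' e),
    finsum_eq_single _ d]
  · simp [sub_mul]
  · intro i hi
    rcases lt_or_gt_of_ne hi with h' | h'
    · simp [h i h']
    · have : coeff e (a ^ i) = 0 := coeff_of_lt_order (lt_of_lt_of_le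
        (by exact_mod_cast (by omega : degree e < i))
        (le_order_pow_of_constantCoeff_eq_zero i ha))
      simp [this]

/-- The exponent (a, b). -/
def m2 (a b : ℕ) : Fin 2 →₀ ℕ := single 0 a + single 1 b

theorem m2_zero (a b : ℕ) : m2 a b 0 = a := by simp [m2]

theorem m2_one (a b : ℕ) : m2 a b 1 = b := by simp [m2]

theorem eq_m2 (e : Fin 2 →₀ ℕ) : e = m2 (e 0) (e 1) := by
  ext i
  fin_cases i <;> simp [m2]

theorem degree_m2 (a b : ℕ) : degree (m2 a b) = a + b := by
  simp [m2]

theorem m2_eq_iff {a b : ℕ} {e : Fin 2 →₀ ℕ} : m2 a b = e ↔ a = e 0 ∧ b = e 1 := by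
  constructor
  · rintro rfl
    simp [m2_zero, m2_one]
  · rintro ⟨rfl, rfl⟩
    exact (eq_m2 e).symm

theorem agree_law (G : FormalGroup k) : Agree 2 (G : MvPowerSeries (Fin 2) k) (X 0 + X 1) := by
  intro e he
  have h2 : e = 0 ∨ e = single 0 1 ∨ e = single 1 1 := by
    rw [degree_eq_sum, Fin.sum_univ_two] at he
    rcases (show (e 0 = 0 ∧ e 1 = 0) ∨ (e 0 = 1 ∧ e 1 = 0) ∨ (e 0 = 0 ∧ e 1 = 1) by omega) with
      h | h | h
    · left; ext i; fin_cases i <;> simp [h.1, h.2]
    · right; left; ext i; fin_cases i <;> simp [h.1, h.2]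
    · right; right; ext i; fin_cases i <;> simp [h.1, h.2]
  rcases h2 with rfl | rfl | rfl
  · simp [G.zero_constantCoeff]
  · simp [G.lin_coeff_X, coeff_X, Finsupp.single_left_inj]
  · simp [G.lin_coeff_Y, coeff_X, Finsupp.single_left_inj]

theorem X_pow_mul_X_pow {i j : σ} (a b : ℕ) :
    (X i : MvPowerSeries σ k) ^ a * X j ^ b = monomial (single i a + single j b) 1 := by
  rw [X_pow_eq, X_pow_eq, monomial_mul_monomial, one_mul]

/-- Coefficients of powers of a law in the lowest degree. -/
theorem coeff_law_pow (G : FormalGroup k) {d : ℕ} {e : Fin 2 →₀ ℕ} (he : degree e = d) :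
    coeff e ((G : MvPowerSeries (Fin 2) k) ^ d) = (d.choose (e 0) : k) := by
  classical
  have hlow := ((low_one G.zero_constantCoeff (by simp) (agree_law G)).pow d).2.2 e (by omega)
  rw [hlow, add_pow, map_sum, Finset.sum_eq_single (e 0)]
  · rw [← Nat.cast_commute, ← map_natCast (C : k →+* MvPowerSeries (Fin 2) k), coeff_C_mul,
      X_pow_mul_X_pow, coeff_monomial, if_pos, mul_one]
    rw [degree_eq_sum, Fin.sum_univ_two] at he
    ext i
    fin_cases i <;> simp; omega
  · intro t ht hne
    rw [← Nat.cast_commute, ← map_natCast (C : k →+* MvPowerSeries (Fin 2) k), coeff_C_mul,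
      X_pow_mul_X_pow, coeff_monomial, if_neg, mul_zero]
    intro h
    exact hne (by simp [h])
  · intro h
    rw [degree_eq_sum, Fin.sum_univ_two] at he
    exact absurd (Finset.mem_range.mpr (by omega)) h

/-- Coefficients of (X_i + X_j)^N X_l^M in three variables. -/
theorem coeff_lin_pow {i j l : Fin 3} (hij : i ≠ j) (hil : i ≠ l) (hjl : j ≠ l) (N M : ℕ)
    (e : Fin 3 →₀ ℕ) :
    coeff e ((X i + X j : MvPowerSeries (Fin 3) k) ^ N * X l ^ M) =
      if e i + e j = N ∧ e l = M then (N.choose (e i) : k) else 0 := by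
  classical
  have hall : ∀ x, x = i ∨ x = j ∨ x = l := by
    revert i j l
    decide
  have hiff : ∀ t ≤ N, e = single i t + single j (N - t) + single l M ↔
      e i = t ∧ e j = N - t ∧ e l = M := by
    intro t _
    constructor
    · intro h
      rw [h]
      simp [hij, hil, hjl, hij.symm, hil.symm, hjl.symm]
    · rintro ⟨h1, h2, h3⟩
      ext x
      rcases hall x with rfl | rfl | rfl <;>
        simp [hij, hil, hjl, hij.symm, hil.symm, hjl.symm, h1, h2, h3]
  rw [add_pow, Finset.sum_mul, map_sum]
  have hterm : ∀ t ∈ Finset.range (N + 1),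
      coeff e ((X i : MvPowerSeries (Fin 3) k) ^ t * X j ^ (N - t) * (N.choose t : MvPowerSeries
        (Fin 3) k) * X l ^ M) =
      if e i = t ∧ e j = N - t ∧ e l = M then (N.choose t : k) else 0 := by
    intro t ht
    rw [← Nat.cast_commute, mul_assoc, ← map_natCast (C : k →+* MvPowerSeries (Fin 3) k),
      coeff_C_mul, X_pow_mul_X_pow, X_pow_eq, monomial_mul_monomial, coeff_monomial, one_mul]
    simp only [hiff t (Nat.lt_succ_iff.mp (Finset.mem_range.mp ht)), mul_ite, mul_one, mul_zero]
  rw [Finset.sum_congr rfl hterm]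
  by_cases h : e i + e j = N ∧ e l = M
  · rw [if_pos h, Finset.sum_eq_single (e i)]
    · rw [if_pos ⟨rfl, by omega, h.2⟩]
    · intro t _ ht
      rw [if_neg fun h' => ht h'.1.symm]
    · intro hn
      exact absurd (Finset.mem_range.mpr (by omega)) hn
  · rw [if_neg h]
    refine Finset.sum_eq_zero fun t ht => if_neg fun h' => h ⟨?_, h'.2.2⟩
    have := Finset.mem_range.mp ht
    omega

/-- The linear coefficient of multiplication by m. -/
theorem agree_mulSeries (G : FormalGroup k) : ∀ m : ℕ,
    Agree 2 (mulSeries G m : MvPowerSeries Unit k) (C (m : k) * X ())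
  | 0 => fun e _ => by simp [mulSeries]
  | m + 1 => by
    intro e he
    have hM : constantCoeff (mulSeries G m : MvPowerSeries Unit k) = 0 :=
      constantCoeff_mulSeries G m
    rcases (show degree e = 0 ∨ degree e = 1 by omega) with h | h
    · obtain rfl : e = 0 := (degree_eq_zero_iff e).mp h
      rw [coeff_zero_eq_constantCoeff_apply, coeff_zero_eq_constantCoeff_apply, map_mul,
        constantCoeff_X, mul_zero]
      exact constantCoeff_mulSeries G (m + 1)
    · have key := coeff_subst_sub (G : MvPowerSeries (Fin 2) k) 1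
        ![(PowerSeries.X : PowerSeries k), mulSeries G m] ![(PowerSeries.X : PowerSeries k), 0]
        (fun i => by fin_cases i <;> simp [PowerSeries.X, hM]) (by simp)
        (fun i hi => by fin_cases i <;> simp_all) (n := 1)
        (fun e' he' => by
          obtain rfl : e' = 0 := (degree_eq_zero_iff e').mp (by omega)
          simp [hM]) (d := e) (by omega)
      rw [G.lin_coeff_Y, one_mul] at key
      simp only [Matrix.cons_val_one, Matrix.cons_val_zero, map_zero, sub_zero] at key
      rw [show (G : MvPowerSeries (Fin 2) k).subst ![(PowerSeries.X : PowerSeries k), 0] =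
        PowerSeries.X from FormalGroup.Xzero_eq_X G, sub_eq_iff_eq_add, agree_mulSeries G m e he]
        at key
      show coeff e ((G : MvPowerSeries (Fin 2) k).subst ![PowerSeries.X, mulSeries G m]) = _
      rw [key]
      simp [PowerSeries.X, add_mul]

end

end Vale.Agent.P217.Classify
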